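import Vale.Agent.P181.FT.Spec

/-!
# P181, line FT, block [JAC]: complementary minors (helper452)
-/

set_option autoImplicit false

namespace Vale.Agent.P181.FT.H452

open Matrix

variable {m n R : Type*} [CommRing R] [Fintype m] [DecidableEq m] [Fintype n] [DecidableEq n]

/-- The determinant after two enumerations of the indices. -/
theorem det_sub (P : Matrix n n R) (er ec : m ≃ n) : (P.submatrix er ec).det =
    ((Equiv.Perm.sign (ec.symm.trans er) : ℤ) : R) * P.det := by
  have h : P.submatrix er ec = (P.submatrix (ec.symm.trans er) id).submatrix ec ec := by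
    ext i j
    simp
  rw [h, Matrix.det_submatrix_equiv_self, Matrix.det_permute]

/-- Complementary minors, block form. -/
theorem block {k l : Type*} [Fintype k] [DecidableEq k] [Fintype l] [DecidableEq l]
    (P Q : Matrix (k ⊕ l) (k ⊕ l) R) (D : R) (h : Q * P = D • 1) :
    Q.toBlocks₂₂.det * P.det = P.toBlocks₁₁.det * D ^ Fintype.card l := by
  have h1 : fromBlocks (1 : Matrix k k R) 0 Q.toBlocks₂₁ Q.toBlocks₂₂ * P =
      fromBlocks P.toBlocks₁₁ P.toBlocks₁₂ 0 (D • (1 : Matrix l l R)) := by
    have h2 : Q.toBlocks₂₁ * P.toBlocks₁₁ + Q.toBlocks₂₂ * P.toBlocks₂₁ = 0 := by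
      have h3 : (Q * P).toBlocks₂₁ = 0 := by
        rw [h]
        ext i j
        simp [toBlocks₂₁]
      rw [← h3]
      conv_rhs => rw [← fromBlocks_toBlocks Q, ← fromBlocks_toBlocks P, fromBlocks_multiply,
        toBlocks_fromBlocks₂₁]
    have h4 : Q.toBlocks₂₁ * P.toBlocks₁₂ + Q.toBlocks₂₂ * P.toBlocks₂₂ = D • 1 := by
      have h3 : (Q * P).toBlocks₂₂ = D • (1 : Matrix l l R) := by
        rw [h]
        ext i j
        simp [toBlocks₂₂, Matrix.one_apply]
      rw [← h3]
      conv_rhs => rw [← fromBlocks_toBlocks Q, ← fromBlocks_toBlocks P, fromBlocks_multiply,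
        toBlocks_fromBlocks₂₂]
    conv_lhs => rw [← fromBlocks_toBlocks P]
    rw [fromBlocks_multiply, h2, h4]
    simp
  have h2 := congrArg Matrix.det h1
  rw [det_mul, det_fromBlocks_zero₁₂, det_fromBlocks_zero₂₁, det_one, one_mul, det_smul, det_one,
    mul_one] at h2
  exact h2

/-- The enumeration of a set and of its complement. -/
theorem exists_equiv {b l : ℕ} (hl : l ≤ b) (e : Fin (b - l) → Fin b) (U : Fin l → Fin b)
    (he : Function.Injective e) (hU : Function.Injective U) (hd : ∀ i j, e i ≠ U j) :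
    ∃ E : Fin (b - l) ⊕ Fin l ≃ Fin b, (∀ i, E (Sum.inl i) = e i) ∧ ∀ j, E (Sum.inr j) = U j := by
  have h1 : Function.Injective (Sum.elim e U) := he.sumElim hU hd
  have h2 : Function.Bijective (Sum.elim e U) := by
    refine (Fintype.bijective_iff_injective_and_card _).2 ⟨h1, ?_⟩
    rw [Fintype.card_sum, Fintype.card_fin, Fintype.card_fin, Fintype.card_fin]
    omega
  exact ⟨Equiv.ofBijective _ h2, fun _ => rfl, fun _ => rfl⟩

/-- **[FT-JAC]** complementary minors. -/
theorem jac : JacStmt := by
  intro b l hl P e U he hU hd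
  obtain ⟨er, er1, er2⟩ := exists_equiv hl e U he hU hd
  obtain ⟨ec, ec1, ec2⟩ := exists_equiv hl (Fin.castLE (Nat.sub_le b l))
    (fun s => Fin.rev (Fin.castLE hl s)) (Fin.castLE_injective _)
    (fun s t h => Fin.castLE_injective hl (Fin.rev_injective h)) (by
      intro i j h
      have h1 := congrArg Fin.val h
      rw [Fin.val_rev] at h1
      simp only [Fin.val_castLE] at h1
      omega)
  have h1 : P.adjugate.submatrix ec er * P.submatrix er ec = P.det • 1 := by
    rw [Matrix.submatrix_mul_equiv, Matrix.adjugate_mul]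
    ext i j
    simp [Matrix.one_apply]
  have h2 := block (P.submatrix er ec) (P.adjugate.submatrix ec er) P.det h1
  rw [det_sub, Fintype.card_fin] at h2
  have h3 : (P.adjugate.submatrix ec er).toBlocks₂₂.det =
      Matrix.det (Matrix.of fun r s : Fin l => P.adjugate (Fin.rev (Fin.castLE hl s)) (U r)) := by
    rw [← Matrix.det_transpose]
    congr 1
    ext r s
    simp [Matrix.toBlocks₂₂, ec2, er2]
  have h4 : (P.submatrix er ec).toBlocks₁₁ =
      Matrix.of fun r s : Fin (b - l) => P (e r) (Fin.castLE (Nat.sub_le b l) s) := by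
    ext r s
    simp [Matrix.toBlocks₁₁, ec1, er1]
  rw [h3, h4] at h2
  set ε : ℤˣ := Equiv.Perm.sign (ec.symm.trans er) with hε
  refine ⟨ε, ?_⟩
  have h5 : ((ε : ℤ) : Polynomial ℂ) * ((ε : ℤ) : Polynomial ℂ) = 1 := by
    rw [← Int.cast_mul, ← Units.val_mul, Int.units_mul_self]
    simp
  calc P.det * Matrix.det (Matrix.of fun r s : Fin l =>
        P.adjugate (Fin.rev (Fin.castLE hl s)) (U r))
      = (((ε : ℤ) : Polynomial ℂ) * ((ε : ℤ) : Polynomial ℂ)) * (P.det *
          Matrix.det (Matrix.of fun r s : Fin l =>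
            P.adjugate (Fin.rev (Fin.castLE hl s)) (U r))) := by rw [h5, one_mul]
    _ = ((ε : ℤ) : Polynomial ℂ) * (Matrix.det (Matrix.of fun r s : Fin l =>
            P.adjugate (Fin.rev (Fin.castLE hl s)) (U r)) *
            (((ε : ℤ) : Polynomial ℂ) * P.det)) := by ring
    _ = _ := by rw [h2]; ring

end Vale.Agent.P181.FT.H452
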